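import Vale.Agent.P252.Cert.DDCheck
import Vale.Agent.P252.Rigidity.General.Cert4.Flat.MII0

/-! Leaf certificates of the bisections, generated. -/

namespace Vale.Agent.P252.General.Cert4

open Vale.Agent.P100T.PosCheck Vale.Agent.P252.PolyPSD

theorem MII0_r3bbbbbbb : checkTree MII0
    (.leaf ![![16777216, 0, 0, 0, 0, 0, 0, 0, 0], ![1822305, 16777216, 0, 0, 0, 0, 0, 0, 0], ![-2950623, 1237457, 16777216, 0, 0, 0, 0, 0, 0], ![9311943, 1256770, 1115100, 16777216, 0, 0, 0, 0, 0], ![9891050, 10660227, 2106561, -2606623, 16777216, 0, 0, 0, 0], ![-2332159, 11290502, 14574495, -3102169, -1620872, 16777216, 0, 0, 0], ![518632, -427977, 13665191, -1022572, 1345173, -2112666, 16777216, 0, 0], ![5492842, -2093413, -998113, 8739574, 3467104, -731832, 2161541, 16777216, 0], ![642622870246, -240458891396, -111197468519, 1019653250460, 406770069487, -83500975770, 255426776398, 1957717795590, 16777216]] ![79324171502, 82761445673, 124908017559, 104323959050, 66782322473, 48611155131, 157374638667, 3541338104199, 4096] : Tree 9)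
    ⟨(28672, 53248, 65536), (24576, 57344, 65536), (24576, 49152, 65536)⟩ = true := by decide +kernel

end Vale.Agent.P252.General.Cert4
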