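import Vale.Agent.P252.Cert.DDCheck
import Vale.Agent.P252.Rigidity.General.Cert4.Flat.MI2

/-! Leaf certificates of the bisections, generated. -/

namespace Vale.Agent.P252.General.Cert4

open Vale.Agent.P100T.PosCheck Vale.Agent.P252.PolyPSD

theorem MI2_r0 : checkTree MI2
    (.leaf ![![16777216, 0, 0], ![14640897, 16777216, 0], ![12817978, 15202211, 16777216]] ![4096, 16574, 12692] : Tree 3)
    ⟨((-65536), 0, 65536), (0, 0, 65536), ((-65536), 65536, 65536)⟩ = true := by decide +kernel

theorem MI2_r1aa : checkTree MI2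
    (.leaf ![![16777216, 0, 0], ![14019145, 16777216, 0], ![16915748, 17135987, 16777216]] ![4096, 18882, 6932] : Tree 3)
    ⟨(0, 65536, 65536), ((-32768), 65536, 65536), ((-32768), 32768, 65536)⟩ = true := by decide +kernel

theorem MI2_r1ab : checkTree MI2
    (.leaf ![![16777216, 0, 0], ![13990451, 16777216, 0], ![15120039, 17074468, 16777216]] ![4096, 11243, 28278] : Tree 3)
    ⟨((-32768), 65536, 65536), ((-65536), 65536, 65536), ((-32768), 32768, 65536)⟩ = true := by decide +kernel

theorem MI2_r1b : checkTree MI2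
    (.leaf ![![16777216, 0, 0], ![14243866, 16777216, 0], ![10728141, 8827600, 16777216]] ![4096, 19940, 12668] : Tree 3)
    ⟨((-32768), 32768, 65536), (0, 0, 65536), (0, 65536, 65536)⟩ = true := by decide +kernel

theorem MI2_r2aaaa : checkTree MI2
    (.leaf ![![16777216, 0, 0], ![25473738, 16777216, 0], ![-7824706, -12333178, 16777216]] ![4096, 7829, 30275] : Tree 3)
    ⟨(65536, 32768, 65536), (49152, 32768, 65536), (49152, 16384, 65536)⟩ = true := by decide +kernel

theorem MI2_r2aaab : checkTree MI2
    (.leaf ![![16777216, 0, 0], ![23010224, 16777216, 0], ![-8916737, -14008138, 16777216]] ![4096, 9108, 20872] : Tree 3)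
    ⟨(49152, 32768, 65536), (32768, 32768, 65536), (49152, 16384, 65536)⟩ = true := by decide +kernel

theorem MI2_r2aabaa : checkTree MI2
    (.leaf ![![16777216, 0, 0], ![26368368, 16777216, 0], ![-4294754, -9964183, 16777216]] ![4096, 10945, 46651] : Tree 3)
    ⟨(49152, 16384, 65536), (57344, 8192, 65536), (65536, 16384, 65536)⟩ = true := by decide +kernel

theorem MI2_r2aabab : checkTree MI2
    (.leaf ![![16777216, 0, 0], ![27581412, 16777216, 0], ![-2342727, -8477792, 16777216]] ![4096, 11659, 101887] : Tree 3)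
    ⟨(57344, 8192, 65536), (65536, 0, 65536), (65536, 16384, 65536)⟩ = true := by decide +kernel

theorem MI2_r2aabb : checkTree MI2
    (.leaf ![![16777216, 0, 0], ![26799638, 16777216, 0], ![-6196300, -10927252, 16777216]] ![4096, 8372, 34463] : Tree 3)
    ⟨(65536, 16384, 65536), (65536, 32768, 65536), (49152, 16384, 65536)⟩ = true := by decide +kernel

theorem MI2_r2aba : checkTree MI2
    (.leaf ![![16777216, 0, 0], ![25807800, 16777216, 0], ![-11209752, -13959112, 16777216]] ![4096, 8217, 26515] : Tree 3)
    ⟨(65536, 65536, 65536), (49152, 49152, 65536), (65536, 32768, 65536)⟩ = true := by decide +kernel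

theorem MI2_r2abba : checkTree MI2
    (.leaf ![![16777216, 0, 0], ![22772333, 16777216, 0], ![-10766531, -15230255, 16777216]] ![4096, 6795, 15174] : Tree 3)
    ⟨(32768, 32768, 65536), (49152, 32768, 65536), (49152, 49152, 65536)⟩ = true := by decide +kernel

theorem MI2_r2abbb : checkTree MI2
    (.leaf ![![16777216, 0, 0], ![25095778, 16777216, 0], ![-9945191, -13675300, 16777216]] ![4096, 9709, 31291] : Tree 3)
    ⟨(49152, 32768, 65536), (65536, 32768, 65536), (49152, 49152, 65536)⟩ = true := by decide +kernel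

theorem MI2_r2ba : checkTree MI2
    (.leaf ![![16777216, 0, 0], ![18515119, 16777216, 0], ![-8624048, -15399813, 16777216]] ![4096, 11974, 6730] : Tree 3)
    ⟨(0, 0, 65536), (32768, 0, 65536), (32768, 32768, 65536)⟩ = true := by decide +kernel

theorem MI2_r2bbaa : checkTree MI2
    (.leaf ![![16777216, 0, 0], ![23351319, 16777216, 0], ![-5949971, -12010607, 16777216]] ![4096, 8730, 22629] : Tree 3)
    ⟨(32768, 0, 65536), (49152, 0, 65536), (49152, 16384, 65536)⟩ = true := by decide +kernel

theorem MI2_r2bbabaa : checkTree MI2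
    (.leaf ![![16777216, 0, 0], ![25832345, 16777216, 0], ![-3306434, -9543364, 16777216]] ![4096, 10566, 41738] : Tree 3)
    ⟨(49152, 0, 65536), (57344, 0, 65536), (57344, 8192, 65536)⟩ = true := by decide +kernel

theorem MI2_r2bbababa : checkTree MI2
    (.leaf ![![16777216, 0, 0], ![27335301, 16777216, 0], ![-1519234, -8059655, 16777216]] ![4096, 14351, 134269] : Tree 3)
    ⟨(65536, 0, 65536), (61440, 4096, 65536), (57344, 0, 65536)⟩ = true := by decide +kernel

theorem MI2_r2bbababb : checkTree MI2
    (.leaf ![![16777216, 0, 0], ![26721929, 16777216, 0], ![-2423969, -8758700, 16777216]] ![4096, 13933, 86678] : Tree 3)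
    ⟨(61440, 4096, 65536), (57344, 8192, 65536), (57344, 0, 65536)⟩ = true := by decide +kernel

theorem MI2_r2bbabb : checkTree MI2
    (.leaf ![![16777216, 0, 0], ![25172904, 16777216, 0], ![-4529215, -10497630, 16777216]] ![4096, 13249, 52192] : Tree 3)
    ⟨(57344, 8192, 65536), (49152, 16384, 65536), (49152, 0, 65536)⟩ = true := by decide +kernel

theorem MI2_r2bbb : checkTree MI2
    (.leaf ![![16777216, 0, 0], ![21946842, 16777216, 0], ![-8099491, -13947813, 16777216]] ![4096, 11079, 26652] : Tree 3)
    ⟨(49152, 16384, 65536), (32768, 32768, 65536), (32768, 0, 65536)⟩ = true := by decide +kernel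

theorem MI2_r3a : checkTree MI2
    (.leaf ![![16777216, 0, 0], ![16458304, 16777216, 0], ![-7493789, -14177817, 16777216]] ![4096, 9894, 5313] : Tree 3)
    ⟨(0, 0, 65536), (32768, 32768, 65536), (0, 65536, 65536)⟩ = true := by decide +kernel

theorem MI2_r3baa : checkTree MI2
    (.leaf ![![16777216, 0, 0], ![21321550, 16777216, 0], ![-12870696, -17258894, 16777216]] ![4096, 8487, 19633] : Tree 3)
    ⟨(32768, 32768, 65536), (49152, 49152, 65536), (32768, 65536, 65536)⟩ = true := by decide +kernel

theorem MI2_r3bab : checkTree MI2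
    (.leaf ![![16777216, 0, 0], ![23344719, 16777216, 0], ![-12645358, -15812670, 16777216]] ![4096, 6548, 22513] : Tree 3)
    ⟨(49152, 49152, 65536), (65536, 65536, 65536), (32768, 65536, 65536)⟩ = true := by decide +kernel

theorem MI2_r3bb : checkTree MI2
    (.leaf ![![16777216, 0, 0], ![18199331, 16777216, 0], ![-12742050, -18559493, 16777216]] ![4096, 15344, 8136] : Tree 3)
    ⟨(32768, 65536, 65536), (0, 65536, 65536), (32768, 32768, 65536)⟩ = true := by decide +kernel

end Vale.Agent.P252.General.Cert4
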