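import Vale.Agent.P252.Cert.DDCheck
import Vale.Agent.P252.Rigidity.General.Cert4.Flat.MII2

/-! Leaf certificates of the bisections, generated. -/

namespace Vale.Agent.P252.General.Cert4

open Vale.Agent.P100T.PosCheck Vale.Agent.P252.PolyPSD

theorem MII2_r0aa : checkTree MII2
    (.leaf ![![16777216, 0, 0], ![-10988167, 16777216, 0], ![12939650, 2177460, 16777216]] ![4096, 4569, 8597] : Tree 3)
    ⟨((-65536), 0, 65536), ((-32768), 0, 65536), ((-32768), 32768, 65536)⟩ = true := by decide +kernel

theorem MII2_r0ab : checkTree MII2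
    (.leaf ![![16777216, 0, 0], ![-4140898, 16777216, 0], ![14881578, 649592, 16777216]] ![4096, 4569, 15236] : Tree 3)
    ⟨((-32768), 0, 65536), (0, 0, 65536), ((-32768), 32768, 65536)⟩ = true := by decide +kernel

theorem MII2_r0b : checkTree MII2
    (.leaf ![![16777216, 0, 0], ![-12790808, 16777216, 0], ![12215174, 2645614, 16777216]] ![4096, 4760, 10002] : Tree 3)
    ⟨((-32768), 32768, 65536), ((-65536), 65536, 65536), ((-65536), 0, 65536)⟩ = true := by decide +kernel

theorem MII2_r1 : checkTree MII2
    (.leaf ![![16777216, 0, 0], ![-2774654, 16777216, 0], ![14855351, 517283, 16777216]] ![4096, 4456, 14503] : Tree 3)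
    ⟨(0, 0, 65536), (0, 65536, 65536), ((-65536), 65536, 65536)⟩ = true := by decide +kernel

theorem MII2_r2aaa : checkTree MII2
    (.leaf ![![16777216, 0, 0], ![23559619, 16777216, 0], ![11247879, -3690426, 16777216]] ![4096, 7408, 22277] : Tree 3)
    ⟨(32768, 32768, 65536), (49152, 16384, 65536), (65536, 32768, 65536)⟩ = true := by decide +kernel

theorem MII2_r2aabaaa : checkTree MII2
    (.leaf ![![16777216, 0, 0], ![26747228, 16777216, 0], ![4695636, -7407902, 16777216]] ![4096, 10066, 53197] : Tree 3)
    ⟨(65536, 16384, 65536), (57344, 16384, 65536), (57344, 8192, 65536)⟩ = true := by decide +kernel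

theorem MII2_r2aabaab : checkTree MII2
    (.leaf ![![16777216, 0, 0], ![25419253, 16777216, 0], ![6963003, -6337069, 16777216]] ![4096, 16205, 51709] : Tree 3)
    ⟨(57344, 16384, 65536), (49152, 16384, 65536), (57344, 8192, 65536)⟩ = true := by decide +kernel

theorem MII2_r2aababaa : checkTree MII2
    (.leaf ![![16777216, 0, 0], ![27226847, 16777216, 0], ![1876239, -9027974, 16777216]] ![4096, 14122, 68945] : Tree 3)
    ⟨(57344, 8192, 65536), (61440, 4096, 65536), (65536, 8192, 65536)⟩ = true := by decide +kernel

theorem MII2_r2aababab : checkTree MII2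
    (.leaf ![![16777216, 0, 0], ![27868465, 16777216, 0], ![1017232, -9321706, 16777216]] ![4096, 8024, 125587] : Tree 3)
    ⟨(61440, 4096, 65536), (65536, 0, 65536), (65536, 8192, 65536)⟩ = true := by decide +kernel

theorem MII2_r2aababb : checkTree MII2
    (.leaf ![![16777216, 0, 0], ![27458637, 16777216, 0], ![3195830, -8123528, 16777216]] ![4096, 12161, 59222] : Tree 3)
    ⟨(65536, 8192, 65536), (65536, 16384, 65536), (57344, 8192, 65536)⟩ = true := by decide +kernel

theorem MII2_r2aabba : checkTree MII2
    (.leaf ![![16777216, 0, 0], ![26921930, 16777216, 0], ![6849779, -5937654, 16777216]] ![4096, 10631, 40515] : Tree 3)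
    ⟨(65536, 32768, 65536), (57344, 24576, 65536), (65536, 16384, 65536)⟩ = true := by decide +kernel

theorem MII2_r2aabbb : checkTree MII2
    (.leaf ![![16777216, 0, 0], ![25925576, 16777216, 0], ![7377808, -5893742, 16777216]] ![4096, 14124, 40933] : Tree 3)
    ⟨(57344, 24576, 65536), (49152, 16384, 65536), (65536, 16384, 65536)⟩ = true := by decide +kernel

theorem MII2_r2aba : checkTree MII2
    (.leaf ![![16777216, 0, 0], ![24728405, 16777216, 0], ![9611204, -4370760, 16777216]] ![4096, 7451, 19564] : Tree 3)
    ⟨(65536, 65536, 65536), (49152, 49152, 65536), (65536, 32768, 65536)⟩ = true := by decide +kernel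

theorem MII2_r2abb : checkTree MII2
    (.leaf ![![16777216, 0, 0], ![22790432, 16777216, 0], ![11300856, -3649574, 16777216]] ![4096, 7683, 22958] : Tree 3)
    ⟨(49152, 49152, 65536), (32768, 32768, 65536), (65536, 32768, 65536)⟩ = true := by decide +kernel

theorem MII2_r2baa : checkTree MII2
    (.leaf ![![16777216, 0, 0], ![17086900, 16777216, 0], ![15571254, -1000971, 16777216]] ![4096, 10156, 80512] : Tree 3)
    ⟨(32768, 32768, 65536), (16384, 16384, 65536), (32768, 0, 65536)⟩ = true := by decide +kernel

theorem MII2_r2bab : checkTree MII2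
    (.leaf ![![16777216, 0, 0], ![13246492, 16777216, 0], ![16110922, -566069, 16777216]] ![4096, 7355, 30593] : Tree 3)
    ⟨(16384, 16384, 65536), (0, 0, 65536), (32768, 0, 65536)⟩ = true := by decide +kernel

theorem MII2_r2bbaaa : checkTree MII2
    (.leaf ![![16777216, 0, 0], ![23438584, 16777216, 0], ![11960082, -3374560, 16777216]] ![4096, 19051, 71048] : Tree 3)
    ⟨(49152, 16384, 65536), (40960, 8192, 65536), (49152, 0, 65536)⟩ = true := by decide +kernel

theorem MII2_r2bbaaba : checkTree MII2
    (.leaf ![![16777216, 0, 0], ![21162056, 16777216, 0], ![16074401, -535587, 16777216]] ![4096, 16484, 138026] : Tree 3)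
    ⟨(32768, 0, 65536), (40960, 0, 65536), (40960, 8192, 65536)⟩ = true := by decide +kernel

theorem MII2_r2bbaabb : checkTree MII2
    (.leaf ![![16777216, 0, 0], ![22777758, 16777216, 0], ![14126188, -1910603, 16777216]] ![4096, 25505, 69047] : Tree 3)
    ⟨(40960, 0, 65536), (49152, 0, 65536), (40960, 8192, 65536)⟩ = true := by decide +kernel

theorem MII2_r2bbabaaa : checkTree MII2
    (.leaf ![![16777216, 0, 0], ![25960293, 16777216, 0], ![2550773, -9079767, 16777216]] ![4096, 19207, 108904] : Tree 3)
    ⟨(57344, 8192, 65536), (53248, 4096, 65536), (57344, 0, 65536)⟩ = true := by decide +kernel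

theorem MII2_r2bbabaaba : checkTree MII2
    (.leaf ![![16777216, 0, 0], ![24967477, 16777216, 0], ![5671256, -7377805, 16777216]] ![4096, 26260, 75390] : Tree 3)
    ⟨(49152, 0, 65536), (53248, 0, 65536), (53248, 4096, 65536)⟩ = true := by decide +kernel

theorem MII2_r2bbabaabb : checkTree MII2
    (.leaf ![![16777216, 0, 0], ![25649355, 16777216, 0], ![2889198, -8981921, 16777216]] ![4096, 13851, 112461] : Tree 3)
    ⟨(53248, 0, 65536), (57344, 0, 65536), (53248, 4096, 65536)⟩ = true := by decide +kernel

theorem MII2_r2bbababaaa : checkTree MII2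
    (.leaf ![![16777216, 0, 0], ![27104346, 16777216, 0], ![434715, -9973847, 16777216]] ![4096, 6685, 188004] : Tree 3)
    ⟨(61440, 4096, 65536), (59392, 2048, 65536), (61440, 0, 65536)⟩ = true := by decide +kernel

theorem MII2_r2bbababaab : checkTree MII2
    (.leaf ![![16777216, 0, 0], ![26795404, 16777216, 0], ![486284, -10067582, 16777216]] ![4096, 8859, 183753] : Tree 3)
    ⟨(59392, 2048, 65536), (57344, 0, 65536), (61440, 0, 65536)⟩ = true := by decide +kernel

theorem MII2_r2bbababab : checkTree MII2
    (.leaf ![![16777216, 0, 0], ![27580048, 16777216, 0], ![490443, -9752586, 16777216]] ![4096, 8659, 157587] : Tree 3)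
    ⟨(61440, 0, 65536), (65536, 0, 65536), (61440, 4096, 65536)⟩ = true := by decide +kernel

theorem MII2_r2bbababb : checkTree MII2
    (.leaf ![![16777216, 0, 0], ![26612902, 16777216, 0], ![1360248, -9587500, 16777216]] ![4096, 13161, 129864] : Tree 3)
    ⟨(61440, 4096, 65536), (57344, 8192, 65536), (57344, 0, 65536)⟩ = true := by decide +kernel

theorem MII2_r2bbabb : checkTree MII2
    (.leaf ![![16777216, 0, 0], ![24881043, 16777216, 0], ![7473702, -6170795, 16777216]] ![4096, 16301, 58561] : Tree 3)
    ⟨(57344, 8192, 65536), (49152, 16384, 65536), (49152, 0, 65536)⟩ = true := by decide +kernel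

theorem MII2_r2bbba : checkTree MII2
    (.leaf ![![16777216, 0, 0], ![20504536, 16777216, 0], ![14042716, -2059699, 16777216]] ![4096, 12125, 29439] : Tree 3)
    ⟨(32768, 32768, 65536), (32768, 16384, 65536), (49152, 16384, 65536)⟩ = true := by decide +kernel

theorem MII2_r2bbbba : checkTree MII2
    (.leaf ![![16777216, 0, 0], ![20192018, 16777216, 0], ![15932312, -660884, 16777216]] ![4096, 17587, 147200] : Tree 3)
    ⟨(32768, 0, 65536), (40960, 8192, 65536), (32768, 16384, 65536)⟩ = true := by decide +kernel

theorem MII2_r2bbbbb : checkTree MII2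
    (.leaf ![![16777216, 0, 0], ![21765441, 16777216, 0], ![14215805, -1887312, 16777216]] ![4096, 13818, 36350] : Tree 3)
    ⟨(40960, 8192, 65536), (49152, 16384, 65536), (32768, 16384, 65536)⟩ = true := by decide +kernel

theorem MII2_r3a : checkTree MII2
    (.leaf ![![16777216, 0, 0], ![9730027, 16777216, 0], ![15272211, -1144131, 16777216]] ![4096, 6149, 10331] : Tree 3)
    ⟨(0, 0, 65536), (32768, 32768, 65536), (0, 65536, 65536)⟩ = true := by decide +kernel

theorem MII2_r3b : checkTree MII2
    (.leaf ![![16777216, 0, 0], ![17159507, 16777216, 0], ![13446974, -2376632, 16777216]] ![4096, 4459, 8280] : Tree 3)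
    ⟨(32768, 32768, 65536), (65536, 65536, 65536), (0, 65536, 65536)⟩ = true := by decide +kernel

end Vale.Agent.P252.General.Cert4
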